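import Crest.Agent.X212.Rf65.Px

/-!
# Row 212, P-SPL (helper54): two leaves
-/

set_option autoImplicit false
noncomputable section
open scoped Manifold ContDiff Topology
open MeasureTheory Set Function

namespace Crest.Agent.X212.Spl54
open An M Nd18 Mod61 Nk89 Cht98 Rf65

/-- the family over other clopen sets -/
abbrev sF {Z : Mf 4} {ι lam T : Type} [Fintype ι] [Fintype lam] [NormedAddCommGroup T]
    [NormedSpace ℝ T] (𝔉 : Mod61.Fam Z.I Z.M ι lam T) (O O' : Set Z.M) :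
    Mod61.Fam Z.I Z.M ι lam T := { 𝔉 with Om := O, Om' := O' }

/-- **LEAF SPL-ADD**: the index is additive for clopen decompositions -/
def AddStmt : Prop := ∀ (Z : Mf 4) (ι lam T : Type) [Fintype ι] [Fintype lam]
  [NormedAddCommGroup T] [NormedSpace ℝ T] (𝔉 : Mod61.Fam Z.I Z.M ι lam T)
  (O₁ O₁' O₂ O₂' : Set Z.M) (o : Ref 𝔉) (o₁ : Ref (sF 𝔉 O₁ O₁')) (o₂ : Ref (sF 𝔉 O₂ O₂'))
  (r n m k : ℕ) (c : Cfg Z.M ι lam r) (y : Pnt o r) (y₁ : Pnt o₁ r) (y₂ : Pnt o₂ r) (d d₁ d₂ : ℤ),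
  6 ≤ k → 𝔉.OK → (sF 𝔉 O₁ O₁').OK → (sF 𝔉 O₂ O₂').OK → 𝔉.Om = O₁ ∪ O₂ → 𝔉.Om' = O₁' ∪ O₂' →
  Disjoint O₁ O₂ → y₁.t = y.t → y₂.t = y.t → Adm0 c 𝔉.B (𝔉.G y.t) → Nk89.Rep c y →
  Nk89.Rep c y₁ → Nk89.Rep c y₂ → Idx k (𝔉.eq0 r n m) y d →
  Idx k ((sF 𝔉 O₁ O₁').eq0 r n m) y₁ d₁ → Idx k ((sF 𝔉 O₂ O₂').eq0 r n m) y₂ d₂ → d = d₁ + d₂

variable {Wi : Type} {X : Mf 4} {A κ lam : Type} [Fintype A] [Fintype κ] [Fintype lam]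
  [DecidableEq lam] {M : Mark X A κ} {W : World M} {N : ML M lam} {Λ : Lns W N}
  {A' h : Type} [Fintype A'] [DecidableEq A'] [Fintype h] {r n : ℕ}
  (J : Job Wi Λ A' h r n) (c : M.Cl)

/-- **LEAF SPL-EX**: the field `ex` of `Rf65.SplAt` -/
def ExStmt : Prop := J.OK → PJ J c → ∃ δ₀ > 0, ∀ δ ∈ Ioc 0 δ₀, ∀ (y : J.Obc c) P P',
  (∀ π ∈ P, M.sys.Piece c.1 π) → P' ⊆ P → Go δ y P → Ix δ y P P' (ix δ y P P')

example (b : Bp J c) (P P' Q Q' : Set (Reg A)) (δ : ℝ) :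
    sF (b.Fm P P' (fun _ : T0 => b.s) δ) (W.un c Q) (W.un c Q') = b.Fm Q Q' (fun _ : T0 => b.s) δ :=
  rfl

end Crest.Agent.X212.Spl54
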