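import Crest.Agent.X212.Nat27.Ix

/-!
# Row 212, P-SPL (helper54): the index does not see a change of the measure on a compact set
-/

set_option autoImplicit false
set_option linter.unusedSectionVars false
noncomputable section
open scoped Manifold ContDiff Topology InnerProductSpace NNReal
open MeasureTheory Set Function Filter

namespace Crest.Agent.X212.Spl54
open An An.Pre Sob92 Ell97 Prm93 Fred93 Mod61 Map77 Nk89 Eqv71 Nat27
open Cyf70 (Cq)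

variable {E : Type} [NormedAddCommGroup E] [NormedSpace ℝ E] [FiniteDimensional ℝ E]
  [MeasurableSpace E] [BorelSpace E]
  {HM : Type} [TopologicalSpace HM] {I : ModelWithCorners ℝ E HM} [I.Boundaryless]
  {M : Type} [TopologicalSpace M] [ChartedSpace HM M] [IsManifold I ∞ M]
  [MeasurableSpace M] [T2Space M] [BorelSpace M] [SecondCountableTopology M]
  {ι ι₀ : Type} [Fintype ι] [Fintype ι₀] {N : Type} [NormedAddCommGroup N] [NormedSpace ℝ N]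
  {V W : Type} [NormedAddCommGroup V] [InnerProductSpace ℝ V] [FiniteDimensional ℝ V]
  [NormedAddCommGroup W] [InnerProductSpace ℝ W] [FiniteDimensional ℝ W]
  {F F' : Fr I M ι} {F₀ : Fr I M ι₀} {K : Set M} {k : ℕ}

/-- operators which differ by a term of order zero with compact support -/
theorem cq_B {p : M → V →L[ℝ] V} {q : M → W →L[ℝ] W} {L L' : F₀.H (k + 1) p →L[ℝ] F₀.H k q}
    {A A' : Op M ι V W} (r : F₀.Rep L (F.op A.σ A.B)) (r' : F₀.Rep L' (F'.op A'.σ A'.B))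
    (e : F'.e = F.e) (hA : Nc F₀.toPre F.P A) (hA' : Nc F₀.toPre F'.P A') (hq : A.q = q)
    (hq' : A'.q = q) (hσ : A'.σ = A.σ) (hK : IsCompact K) (h : ∀ x ∉ K, A'.B x = A.B x) :
    Cq L' L :=
  have c := Cb_sub hA'.B hA.B
  have m : Maps p q fun x => A'.B x - A.B x := .of_left fun x v => by
    rw [_root_.sub_apply, map_sub]
    exact congrArg₂ (· - ·) (hq' ▸ hA'.alg.qB x v) (hq ▸ hA.alg.qB x v)
  .of_cpt (Cht98.rellich_mul (F := F₀.toPre) c.choose_spec.1 (HasCompactSupport.intro hK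
    fun x hx => sub_eq_zero.2 (h x hx)) m k.lt_succ_self)
    (DFunLike.congr_fun (RepT_eq r' (RepT_add r (RepT_comp (rep_mulH c m) (rep_incl k.le_succ)))
      fun u => funext fun x => by simp [Pre.op, D_def, e, hσ]))

variable (F F' K) in
/-- the same frame; the measures agree off a compact set -/
structure MC : Prop where
  e : F'.e = F.e
  P : F'.P = F.P
  c : F'.c = F.c
  cpt : IsCompact K
  μ : F'.μ.restrict Kᶜ = F.μ.restrict Kᶜ

namespace MC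
variable (h : MC F F' K)
include h

theorem symm : MC F' F K := ⟨h.e.symm, h.P.symm, h.c.symm, h.cpt, h.μ.symm⟩

theorem Dw (w : List ι) : ∀ u : M → N, F'.Dw w u = F.Dw w u := by
  induction w with
  | nil => exact fun _ => rfl
  | cons a w ih => exact fun u => by rw [Pre.Dw, Pre.Dw, D_def, h.e, ih, D_def]

theorem CBs {f : M → N} {C : ℕ → ℝ} : F'.CBs f C ↔ F.CBs f C := by
  simp only [Pre.CBs, Pre.CB, h.Dw]

theorem Cb {f : M → N} : F'.Cb f ↔ F.Cb f := by simp only [Pre.Cb, h.CBs]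

theorem mix : Mix F.toPre F'.toPre F.P := fun a x => by rw [h.e, F.P_e]

theorem le : ∃ c : ℝ≥0, F'.μ ≤ c • F.μ := by
  obtain ⟨c, hc⟩ := meas_le_compact F.toPre F'.toPre h.cpt
  refine ⟨c + 1, ?_⟩
  rw [← Measure.restrict_add_restrict_compl (μ := F'.μ) h.cpt.measurableSet, add_smul, one_smul,
    h.μ]
  exact add_le_add hc Measure.restrict_le_self

theorem dv (a : ι) {x : M} (hx : x ∉ K) : F'.dv a x = F.dv a x := by
  have k : ∀ {f : M → ℝ}, (∀ x ∉ Kᶜ, f x = 0) → ∫ x, f x ∂F'.μ = ∫ x, f x ∂F.μ := fun hf => by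
    rw [← setIntegral_eq_integral_of_forall_compl_eq_zero hf, h.μ,
      setIntegral_eq_integral_of_forall_compl_eq_zero hf]
  rw [Met55.fr_dv F']
  refine Met55.dvg_eq h.cpt.isClosed.isOpen_compl (fun y _ => F'.sm a y) (fun f h1 h2 h3 => ?_)
    (fun y _ => F.dv_sm a y) hx
  rw [k fun y hy => image_eq_zero_of_notMem_tsupport fun e => hy (h3 (tsupport_dv f e)),
    k fun y hy => by rw [image_eq_zero_of_notMem_tsupport fun e => hy (h3 e), mul_zero], h.e]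
  exact F.ibp a f h1 h2

theorem tame {C : ℕ → ℝ} (hF : F.Tame C) : ∃ C', F'.Tame C' := by
  obtain ⟨c, hc⟩ := h.le
  obtain ⟨c', hc'⟩ := h.symm.le
  obtain ⟨D, hD⟩ := Cb_unif (F := F'.toPre) (f := F'.dv) fun a => h.Cb.2 <| by
    rw [← add_sub_cancel (F.dv a) (F'.dv a)]
    exact Cb_add ⟨C, hF.dv a⟩ (Cb_of_hcs ((F'.dv_sm a).sub (F.dv_sm a))
      (HasCompactSupport.intro h.cpt fun x hx => sub_eq_zero.2 (h.dv a hx)))
  have hP : ∀ a b, F'.CBs (F'.P a b) C := fun a b => h.P ▸ h.CBs.2 (hF.P a b)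
  have key : ∀ k (f : M → ℝ), Sm I f → HasCompactSupport f →
      C 0 * F.ip k f f ≤ |C 0| * cN ι ι c' (C k) k ^ 2 * F'.ip k f f := fun k f hf hs => by
    have := h.symm.mix.nrm (fun a b => (hP a b).1) hc' k (fun a b => (hP a b).2 k) hf hs
    have h3 := pow_le_pow_left₀ (nrm_nonneg _ _) this 2
    rw [mul_pow, nrm_sq, nrm_sq, ← ip_eq, ← ip_eq] at h3
    rw [mul_assoc]
    exact mul_le_mul (le_abs_self _) h3 (F.ip_nonneg k f) (abs_nonneg _)
  refine ⟨fun k => max (max (C k) (D k)) (max (√c * (|C 0| * cN ι ι c' (C 1) 1 ^ 2))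
    (|C 0| * cN ι ι c' (C 4) 4 ^ 2)), fun a b => CBs_mono (hP a b) fun k => by simp,
    fun a b l => CBs_mono (h.c ▸ h.CBs.2 (hF.c a b l)) fun k => by simp,
    fun a => CBs_mono (hD a) fun k => by simp, fun f hf hs => ?_, fun f hf hs x => ?_,
    fun L hL => ?_⟩
  · have i : Integrable (fun x => f x ^ 4) F.μ := (hf.continuous.pow 4).integrable_of_hasCompactSupport
      (hs.mono fun x hx e => hx (by simp [e]))
    have h1 := integral_mono_measure (f := fun x => f x ^ 4) hc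
      (.of_forall fun _ => by positivity) i.smul_measure_nnreal
    rw [integral_smul_nnreal_measure] at h1
    refine ((Real.sqrt_le_sqrt h1).trans_eq (Real.sqrt_mul c.coe_nonneg _)).trans
      ((mul_le_mul_of_nonneg_left ((hF.l4 f hf hs).trans (key 1 f hf hs)) (Real.sqrt_nonneg _)).trans
        ?_)
    rw [← mul_assoc]
    exact mul_le_mul_of_nonneg_right (by simp) (F'.ip_nonneg 1 f)
  · exact ((hF.sup f hf hs x).trans (key 4 f hf hs)).trans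
      (mul_le_mul_of_nonneg_right (by simp) (F'.ip_nonneg 4 f))
  · obtain ⟨χ, c1, c2⟩ := hF.exh L hL
    exact ⟨χ, CBs_mono (h.CBs.2 c1) fun k => by simp, c2⟩

theorem tw (T : Tw F₀ F) : Tw F₀ F' := by
  obtain ⟨⟨⟨A, a1, a2⟩, c, a3⟩, ⟨B, b1, b2⟩, c', b3⟩ := T.cmp
  obtain ⟨d, hd⟩ := h.le
  obtain ⟨d', hd'⟩ := h.symm.le
  refine ⟨T.t0, h.tame T.t1.choose_spec, ⟨⟨A, fun a x => h.e ▸ a1 a x, a2⟩, d * c, hd.trans ?_⟩,
    ⟨B, fun a x => h.e ▸ b1 a x, fun a b => h.Cb.2 (b2 a b)⟩, c' * d', b3.trans ?_⟩ <;>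
  rw [mul_smul]
  exacts [smul_le_smul_left _ a3, smul_le_smul_left _ hd']

variable {κ : Type} [Fintype κ] [DecidableEq κ] {d : Bd M ι κ} (H : d.Hy F₀ F)
include H

theorem hy : d.Hy F₀ F' := { H with toTw := h.tw H.toTw, P := h.P.trans H.P }

theorem fr {u : M → Cf ι κ} (hu : F₀.Cb u) {n : ℤ} (e : Fr (d.FF F₀.toPre F k u) n) :
    Fr (d.FF F₀.toPre F' k u) n :=
  have a := H.nc_full hu
  have b := (h.hy H).nc_full hu
  e.of_sub_compact (cq_B (p := d.pC) (q := ps d.g d.pE) (H.rep a k) ((h.hy H).rep b k) h.e a b rfl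
    rfl (by simp only [Bd.full, Map77.pair, Op.adj, Bd.d0, Bd.lin, Map77.cut]) h.cpt fun x hx => by
      simp only [Bd.full, Map77.pair, Op.adj, Bd.d0, Bd.lin, Map77.cut, Bc, D_def, h.e, h.c, h.dv _ hx])

end MC

variable {lam lam' : Type} [Fintype lam] [Fintype lam'] {ι' : Type} [Fintype ι']
  {U : M → ι' → ι → ℝ} {v : M → CL (Eu lam) (Eu lam')}
  {T T' : Type} [NormedAddCommGroup T] [NormedSpace ℝ T] [NormedAddCommGroup T'] [NormedSpace ℝ T']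
  {𝔉 : Fam I M ι lam T} {𝔊 : Fam I M ι' lam' T'} {o : Ref 𝔉} {o' : Ref 𝔊} {t : T} {t' : T'}

section fr
variable {W : o.m.Cn} {W' : o'.m.Cn} {u : M → CL o.m.V o'.m.V} (c : CI o o' t t' id U v W W' u)
  {Φ : M → o.m.V} {Φ' : M → o'.m.V} (s : 𝔉.F0.Cb (base W Φ)) (s' : 𝔊.F0.Cb (base W' Φ'))
  (r : RS 𝔉.Om id u Φ Φ') {d : ℤ} (h : (bd o).Hy 𝔉.F0 (rem (𝔉.G t).F 𝔊.F0.toPre))
include c s s' r h

theorem fr0 {U₀ : M → ι' → ι → ℝ}
    (g : PT (rem (𝔉.G t).F 𝔊.F0.toPre) (Fs 𝔊 t') 𝔉.Om 𝔊.Om id id U₀)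
    (cU : ∀ b a, (rem (𝔉.G t).F 𝔊.F0.toPre).Cb fun x => U x b a)
    (cu : (rem (𝔉.G t).F 𝔊.F0.toPre).Cb u)
    (H : Fr ((bd o).FF 𝔉.F0.toPre (rem (𝔉.G t).F 𝔊.F0.toPre) k (base W Φ)) d) :
    Fr ((bd o').FF 𝔊.F0.toPre (Fs 𝔊 t') k (base W' Φ')) d := by
  have h' := (adj_rem c.ok').hy o' c.ht'
  have bC := (c.b1 cU cu).sm2 (c.bp cu)
  obtain ⟨C, a1, a2⟩ := h.good (h.nc_d0 s)
  obtain ⟨C', a3, a4⟩ := h'.good (h'.nc_d0 s')
  refine h'.toTw.fr (h'.nc_full s') (bC.fr g ((c.bg cu).sm2 ((c.bm cu).sm2 (c.b2 cU cu)))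
    (rep_OpH (h.good (h.nc_full s)).choose_spec.2 k).1
    (rep_OpH (h'.good (h'.nc_full s')).choose_spec.2 k).1 (fun w hw w' hw' q x hx => ?_)
    ((H.conj (chg _ _ h.cmp).symm (chg _ _ h.cmp)).congr fun x => ?_))
  · refine (op_pair _ _ _ _ _).trans (Eq.trans ?_ (congrArg _ (op_pair _ _ _ _ _)).symm)
    refine ext2 ?_ ?_ <;> simp only [map_add, f2_i1, f2_i2, s2_i1, s2_i2, add_zero, zero_add,
      f2_sm2, s2_sm2, map_zero]
    · exact adj_rs g a1 a2 a3 a4 (c.bg cu) bC (fun _ hξ _ hξ' => c.d0 r hξ hξ') hw hw' q x hx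
    · exact c.lin s s' r hw hw' q x hx
  · exact ((h.toTw.chg_LH (h.nc_full s) _).trans
      (congrArg _ (ContinuousLinearEquiv.apply_symm_apply _ _))).symm

theorem fr1 (g : PT (rem (𝔉.G t).F 𝔊.F0.toPre) (Fs 𝔊 t') 𝔉.Om 𝔊.Om id id U)
    (H : Fr ((bd o).FF 𝔉.F0.toPre (rem (𝔉.G t).F 𝔊.F0.toPre) k (base W Φ)) d) :
    Fr ((bd o').FF 𝔊.F0.toPre (Fs 𝔊 t') k (base W' Φ')) d := by
  have b : ∀ a, (rem (𝔉.G t).F 𝔊.F0.toPre).Cb (W a) := fun a => h.cmp.Cb_iff.1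
    (by simpa only [oa_base] using Cb_clm (oa a) s)
  have b' : ∀ a, (rem (𝔉.G t).F 𝔊.F0.toPre).Cb (pu 𝔉.Om id (W' a)) := fun a => g.symm.Cb
    (((adj_rem c.ok').tw _ c.ht').cmp.Cb_iff.1 (by simpa only [oa_base] using Cb_clm (oa a) s'))
  refine fr0 (U := fun x b a => 𝔉.Om.indicator (fun x => U x b a) x) (u := 𝔉.Om.indicator u)
    ⟨c.ok, c.ok', c.ht, c.ht', lm_congr c.lm (fun x hx => by simp only [indicator_of_mem hx])
      fun x hx => indicator_of_mem hx _, c.mp, c.sp⟩ s s'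
    (fun x hx => by rw [indicator_of_mem hx, r x hx]) h g g.cb (cb_ind_of_ode (L := fun a x =>
      (ContinuousLinearMap.compL ℝ o.m.V o.m.V o'.m.V).flip (W a x) -
        ContinuousLinearMap.compL ℝ o.m.V o'.m.V o'.m.V
          (∑ b, 𝔉.Om.indicator (fun x => U x b a) x • pu 𝔉.Om id (W' b) x)) c.ok.Om
      (fun x hx => ((c.lm.su x hx).of_le (by simp)).contMDiffWithinAt) (fun x hx a => ?_)
      (fun a => Cb_sub (Cb_clm _ (b a)) (Cb_clm _ (Cb_sum _ fun j _ => Cb_smul (g.cb j a) (b' j))))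
      (C := 1) fun x hx => (u x).opNorm_le_bound zero_le_one fun a => ?_) H
  · simp only [indicator_of_mem hx, pu_on hx]
    exact eq_sub_of_add_eq (c.lm.itw x hx a)
  · exact (c.lm.it.nT x hx a).trans_eq (one_mul _).symm

end fr

/-- **equivalent points of two families on one manifold have the same index** -/
theorem ff_tr {r : ℕ} {y : Pnt o r} {y' : Pnt o' r} (h : 𝔉.OK) (h' : 𝔊.OK)
    (g : LG 𝔉.B (𝔉.G y.t) 𝔊.B (𝔊.G y'.t) 𝔉.Om id U v) (cU : ∀ b a, 𝔉.F0.Cb fun x => U x b a)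
    (hO : 𝔊.Om = 𝔉.Om) (hO' : 𝔊.Om' = 𝔉.Om') (hK : IsCompact K)
    (hμ : 𝔊.F0.μ.restrict Kᶜ = 𝔉.F0.μ.restrict Kᶜ) {u : M → CL o.m.V o'.m.V} {ζ : Circle}
    (e : CEq (𝔉.G y.t).F y.cfg y'.cfg 𝔉.Om id U v u ζ) {d : ℤ}
    (H : Fr ((bd o).FF 𝔉.F0.toPre (Fs 𝔉 y.t) k (uy y)) d) :
    Fr ((bd o').FF 𝔊.F0.toPre (Fs 𝔊 y'.t) k (uy y')) d :=
  have m : MC (Fs 𝔉 y.t) (rem (𝔉.G y.t).F 𝔊.F0.toPre) K := ⟨rfl, rfl, rfl, hK, hμ⟩
  have a := (adj_rem h).hy o y.ht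
  fr1 ⟨h, h', y.ht, y'.ht, (g.of_ceq (y.ad0 h) (y'.ad0 h') e).phase ζ, fun _ hx => hO ▸ hx,
    fun _ _ => hO' ▸ Iff.rfl⟩ (cb_uy h y) (cb_uy h' y') e.Φ (m.hy a)
    ⟨h.Om.1, h'.Om.1, by
      have := g.rot
      rwa [← g.hG.P, ← g.hG'.P] at this, by rw [hO]; exact inv_refl h.Om.2,
      by rw [hO]; exact Measure.map_id,
      fun b j => (m.hy a).cmp.Cb_iff.1 (Cb_ind h.Om (cU b j))⟩ (m.fr a (cb_uy h y) H)

end Crest.Agent.X212.Spl54
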