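import Crest.Agent.X212.Spl54.Fr
import Crest.Agent.X212.Spl54.Op
import Crest.Agent.X212.Spl54.Lv
import Crest.Agent.X212.Wrd81.Loc2
import Crest.Agent.X212.Nk89.Frd

/-!
# Row 212, P-SPL (helper54): the index of a chart is the index of its part
-/

set_option autoImplicit false
set_option linter.unusedSectionVars false
noncomputable section
open scoped Manifold ContDiff Topology
open MeasureTheory Set Function Filter

namespace Crest.Agent.X212.Spl54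
open An M Nd18 Mod61 Nk89 Cht98 Rf65 Rdc90 Pte3 Eqv71 Wrd81

theorem alg_tr {V V' : Type} [NormedAddCommGroup V] [NormedSpace ℝ V] [NormedAddCommGroup V']
    [NormedSpace ℝ V'] {a c v : V →L[ℝ] V'} {S S' p x y : V' →L[ℝ] V'} {w : V' →L[ℝ] V}
    (h : a + S ∘L v - c = 0) (h' : a + S' ∘L v - c = 0) (e : v ∘L w = p)
    (k : x + S ∘L p - y = 0) : x + S' ∘L p - y = 0 := by
  rw [← e, ← ContinuousLinearMap.comp_assoc, add_left_cancel (sub_left_inj.1 (h'.trans h.symm)),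
    ContinuousLinearMap.comp_assoc, e, k]

/-- two connections with the same intertwiner -/
theorem flt_fix {κ lam : Type} [Fintype κ] [Fintype lam] {Y : Mf 3} [CompactSpace Y.M]
    {D : YD Y.I Y.M κ lam} (hD : D.OK) {β : YC Y.M κ lam} {m : Md Y.M (Option κ) lam}
    {W W' : m.Cn} {Φ Φ' : Y.M → m.V} {z z'} {v : Y.M × ℝ → CL β.m.V m.V} {ζ ζ' : Circle}
    (A : D.Adm ⟨m, W, Φ, z⟩) (A' : D.Adm ⟨m, W', Φ', z'⟩)
    (e : Mod61.EqOn D.B D.Z univ (cy β) (cy ⟨m, W, Φ, z⟩) v ζ)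
    (e' : Mod61.EqOn D.B D.Z univ (cy β) (cy ⟨m, W', Φ', z'⟩) v ζ') (f : Flt D ⟨m, W, Φ, z⟩) :
    Flt D ⟨m, W', Φ', z'⟩ := fun x =>
  have k := ceq_refl hD.B hD.G (ad0 A.adm) isOpen_univ
  (((lg_refl hD.B hD.G isOpen_univ).lm A.adm.ok A'.adm.ok A.adm.conn A'.adm.conn k.m fun x l a =>
    alg_tr (e.W x l a) (e'.W x l a) (e.m.uu' x l) (k.W x l a)).Fg (mem_univ x)).trans
    ((congrArg _ (f x)).trans (map_zero _))

variable {Wi : Type} {X : Mf 4} {A κ lam : Type} [Fintype A] [Fintype κ] [Fintype lam]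
  [DecidableEq lam] {M : Mark X A κ} {W : World M} {N : ML M lam} {Λ : Lns W N}
  {A' h : Type} [Fintype A'] [DecidableEq A'] [Fintype h] {r n : ℕ}
  {J : Job Wi Λ A' h r n} {c : M.Cl} {σ : Cel A'} {δ : ℝ}

/-- the weighted measures over two base parameters agree on the ends -/
theorem μ_thk {T T' : Type} [NormedAddCommGroup T] [NormedSpace ℝ T] [NormedAddCommGroup T']
    [NormedSpace ℝ T'] (hJ : J.OK) (b b' : Bp J c) {P₁ P₂ P₃ P₄ : Set (Reg A)} (θ : T → A' → ℝ)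
    (θ' : T' → A' → ℝ) : (b'.Fm P₃ P₄ θ' δ).F0.μ.restrict (thk W.toCaps c (J.Θ b.s) 1)ᶜ =
      (b.Fm P₁ P₂ θ δ).F0.μ.restrict (thk W.toCaps c (J.Θ b.s) 1)ᶜ := by
  have a := agr_thk (m := J.m) Λ b.O b'.O
  have s := fun (b : Bp J c) => (endIn_J (θ := fun _ : T0 => b.s) hJ b.br b.O contDiff_const
    isClopen_empty isClopen_empty subset_rfl).st
  refine (restrict_withDensity a.op.measurableSet _).trans (.trans (congrArg₂ _
    (a.μ (Lay.F_vol _ _) (Lay.F_vol _ _)) (funext fun z => congrArg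
      (fun t => ENNReal.ofReal (Real.exp (2 * (δ * t)))) (Finset.sum_congr rfl fun i _ => ?_)))
    (restrict_withDensity a.op.measurableSet _).symm)
  have e := hJ.end_eq (Add46.act b i) (Add46.act b' i)
  by_cases k : z ∈ (J.K c i.1 _ _ (Add46.act b i)).ψ.target
  · exact congrArg _ (e.τ k)
  · exact ((s b' i).τ_zero (e.tgt ▸ k)).trans ((s b i).τ_zero k).symm

variable {p : Prt A A' h} {U : Type} [Fintype U] {b : Bp J c} {E : EC b p U δ} {y : J.Obc c}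
  {x : Pnt E.o r} {ψ : E.K} {δ₀ : ℝ} {μ : Ed c → Option U}

/-- the connection of a point -/
@[reducible] def x0 (x : Pnt E.o r) : Pnt E.o 0 := ⟨x.α, 0, 0, x.t, x.hα, zero_mem _, x.ht⟩

variable (H : PG J c σ p) (hy : J.Ov σ c y.s) (ch : E.Ch δ₀ σ μ y x ψ)
include H hy ch

theorem kt : KT (J.B c) (J.G c y.s) (J.B c) (J.G c (b.θ p U x.t)) (W.un c p.P) (W.un c p.P) id id
    (fun z a i => (J.B c).P a i z) (J.B c).l :=
  H.pok.kt2 H.ok H.mem hy (H.ov ch.ov x.ht) (θ_eq ch.rep.s)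

theorem ceq0 : ∃ u ζ, Mod61.EqOn (J.B c) (J.G c y.s).F (W.un c p.P) y.x.con (x0 x).cfg u ζ := by
  obtain ⟨u, ζ, e, -⟩ := ch.rep.e
  refine ⟨u, ζ, ceq_on (F := (J.G c (b.θ p U x.t)).F) ⟨e.m, e.W, fun z _ => ?_,
    Subsingleton.elim _ _⟩ fun z hz a =>
      (H.pok.fr_eq H.ok H.mem hy (H.ov ch.ov x.ht) (θ_eq ch.rep.s) z hz a).1.symm⟩
  refine ((add_zero _).trans (congrFun ch.z z)).trans (Eq.symm ?_)
  exact (congrArg _ (map_zero (u z))).trans ((csL_apply _ _ _).symm.trans (map_zero _))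

/-- the slices of a chart are flat -/
theorem flt_ch (hP : PJ J c) {i : Ed c} (hi : i ∈ EdP c p.P) {t : Tq p U}
    (ht : t ∈ (b.F p U δ).Q) : Flt (J.xs i.1).D ((en E i).sl E.o (E.R + 1) t) := by
  have eo := ch.ok
  by_cases k : E.μ i = none
  swap
  · exact Mon62.flt_sl H hP eo hi (eo.har i hi k).1 ht
  let Y := H.ends U b eo.d0 eo.d1
  have ad := fun {t} (ht : t ∈ (b.F p U δ).Q) => (eo.lit i).adm Y.ok (Y.okP i) eo.R5 ht
  have bs := ch.go.bs i hi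
  have l := eo.mov i hi _ ht
  unfold EC.lim at l
  rw [show E.lm i t = E.lm i x.t by simp [EC.lm, k]] at l
  refine flt_fix bs.ok (ad x.ht) (ad ht) (eo.mov i hi _ x.ht) l
    (Add46.flt_eqv bs.ok bs.adm (ad x.ht) (Add46.eqv_symm bs.ok (ad x.ht) bs.adm ?_) bs.flat)
  obtain ⟨u, ζ, e⟩ := ceq0 H hy ch
  have h1 := H.ok.act_end H.mem hy (Add46.act b i)
  have h2 := H.ok.act_end H.mem (H.ov ch.ov x.ht) (Add46.act b i)
  have g := kt H hy ch
  have a := ad0_of ch.go.adm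
  have a' := (x0 x).ad0 Y.ok
  obtain ⟨d, k1, k2⟩ := ch.go.lim i hi h1
  have L := fun l (L : (J.K c i.1 _ _ h1).Lim y.x.con (y.β i.1 i.2) 1 l) =>
    (H.ok.end_eq h2 (Add46.act b i)).lim ((H.ok.end_eq h1 h2).lim_pre g.hB g.hG'
      (H.pok.agr H.ok H.mem hy (H.ov ch.ov x.ht) (θ_eq ch.rep.s)) H.cl
      (H.ok.end_sub h1 H.pok.pc hi) bs.adm a' a (ceq_symm2 g.toLG H.cl.2 a a' e) L)
  refine Add46.eqv_lim Y ⟨eo.R5, eo.lit⟩ (a := i) ((H.act_iff _ _).2 hi) (y := x0 x) a'.adm0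
    ⟨_, _, ceq_refl Y.ok.B (Y.ok.G _ x.ht) a' H.cl.2⟩ bs.adm (L _ (Add46.elim_lim (b := !i.2)
      (eo.d0.trans k1) ?_))
  obtain ⟨_, _ | _⟩ := i
  exacts [k2, k2]

/-- **the index of a chart** -/
theorem idx_ch (hP : PJ J c) (hδ : δ ≤ 1 / 16) (hF : ∀ a ∈ cylW c, ∀ β f, Bs (J.xs a).D β →
    Fz κ (lam ⊕ lam) 8 (Add46.jX J a) f β δ) {d : ℤ} (hd : Ix δ y p.P p.P' d) (q : Wi →₀ ℝ) :
    Idx 8 (EC.tot b p U δ q) x d := by
  obtain ⟨⟨s, br, hO⟩, o, R, x', e, -, -, -, ⟨u', ζ', e'⟩, hd⟩ := hd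
  obtain rfl : s = y.s := e
  have eo := ch.ok
  let Y := H.ends U b eo.d0 eo.d1
  have hl : Y.Lit E.o E.R := ⟨eo.R5, eo.lit⟩
  have k' : (ch.go.bp.Fm p.P p.P' (fun _ : T0 => y.s) δ).OK :=
    (Add46.jGR H.ok H.pok.pc H.pok.sub ch.go.bp eo.d0 eo.d1).X.ok
  have hf := fun i hi t ht => flt_ch H hy ch hP (i := i) hi (t := t) ht
  have A0 := fun r n m => Add46.aff_eq0 (r := r) (n := n) (m := m) Y hl ch.z fun i k =>
    hf i ((H.act_iff _ _).1 k)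
  have hs := Mon62.smU H hP ch.ov eo hδ ch.z hf
  have A1 := hs.aff.tot Y.ok hs.sm q
  obtain ⟨f0, h0⟩ := (Map77.adj_rem Y.ok).rp (A0 0 0 0) 8 (by norm_num)
  obtain ⟨f1, h1⟩ := (Map77.adj_rem Y.ok).rp A1 8 (by norm_num)
  obtain ⟨u, ζ, e⟩ := ceq0 H hy ch
  obtain ⟨C, c1, c2⟩ := tot_cpt (U := U) (δ := δ) H hP ch.ov q x.ht
  have g := (kt H hy ch).toLG
  have a := ad0_of ch.go.adm
  have a' := x'.ad0 k'
  have e2 := ceq_trans (lg_refl g.hB g.hG H.cl.2) g (mapsTo_id _) a' a ((x0 x).ad0 Y.ok)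
    (ceq_symm_id g.hB g.hG H.cl.2 a a' e') e
  rw [show (fun z d a => ∑ i, (J.B c).P d i (id z) * (J.B c).P i a z) = fun z i a => (J.B c).P i a z
    from funext₃ fun z => (g.hB.pr z).idem, show (fun z => (J.B c).l (id z) ∘L (J.B c).l z) =
      (J.B c).l from funext g.hB.lidem] at e2
  refine (idx_iff Y.ok (by norm_num) h1 x).2 ((Ends.cq_two (X := Y) (by norm_num) hl (A0 0 0 0) A1
    h0 h1 (y := x0 x) (y' := x) rfl fun i hi k k0 => ?_).symm.fr ?_)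
  · have hi' := (H.act_iff _ _).1 hi
    have l := fun r n m => Add46.loc_eq0 (r := r) (n := n) (m := m) (k := 8) Y hl hi
      (hP.nil _ i.1.2).1 k k0
    have bs := bs_sl Y hl ch.z (a := i) x.ht (hf i hi' _ x.ht)
    exact ⟨_, cyl_fz (Y := Add46.jX J i.1) bs (fun f => hF _ i.1.2 _ f bs) _ k k0, l _ _ _,
      loc_cpt Y (a := i) c1 c2 (l _ _ _)⟩
  · rw [Nat27.TT_eq Y.ok (by norm_num) h0]
    exact ff_tr (y := x') (y' := x0 x) k' Y.ok g (Map77.cb_P k') rfl rfl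
      (isCompact_thk W.toCaps c (J.Θ y.s) one_pos (by norm_num))
      (μ_thk H.ok ch.go.bp b (fun _ : T0 => y.s) (b.θ p U)) e2
      (Nat27.idx_ff k' (by norm_num) hd)

omit H hy ch in
variable (J c) in
/-- **LEAF SPL** from the existence of the index -/
theorem spl (hE : ExStmt J c) : Spl J c := fun hJ hP => by
  obtain ⟨δ₀, h0, h1⟩ := hE hJ hP
  obtain ⟨δ₁, h2, h3⟩ := exists_fz J c hJ hP
  refine ⟨_, lt_min h0 h2, fun δ hδ => ?_⟩
  have k := h1 δ ⟨hδ.1, hδ.2.trans (min_le_left _ _)⟩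
  have k' := h3 δ ⟨hδ.1, hδ.2.trans (min_le_right _ _)⟩
  exact ⟨k, fun σ p U _ μ b E y x ψ q H hy ch => idx_ch ⟨H.ok, H.mem, H.pok⟩ hy ch hP k'.2.1 k'.2.2
    (k y _ _ H.pok.pc H.pok.sub ch.go) q⟩

end Crest.Agent.X212.Spl54
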