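import Crest.Agent.X212.Spl54.Ch
import Crest.Agent.X212.Ulc97.Add

/-!
# Row 212, P-SPL (helper54): the index of a part exists and is the sum over the pieces
-/

set_option autoImplicit false
set_option linter.unusedSectionVars false
noncomputable section
open scoped Manifold ContDiff Topology
open MeasureTheory Set Function Filter

namespace Crest.Agent.X212.Spl54
open An M Nd18 Mod61 Nk89 Cht98 Rf65 Rdc90 Pte3 Eqv71 Wrd81

variable {Wi : Type} {X : Mf 4} {A κ lam : Type} [Fintype A] [Fintype κ] [Fintype lam]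
  [DecidableEq lam] {M : Mark X A κ} {W : World M} {N : ML M lam} {Λ : Lns W N}
  {A' h : Type} [Fintype A'] [DecidableEq A'] [Fintype h] {r n : ℕ}
  {J : Job Wi Λ A' h r n} {c : M.Cl} {δ : ℝ} {y : J.Obc c} {P P' Q : Set (Reg A)}

theorem go_mono (g : Go δ y P) (hQ : Q ⊆ P) : Go δ y Q :=
  have k : EdP c Q ⊆ EdP c P := fun _ ⟨π, a, b⟩ => ⟨π, hQ a, b⟩
  ⟨g.br, g.O, g.adm, fun i hi => g.bs i (k hi), fun i hi => g.lim i (k hi),
    g.int.mono_set (biUnion_subset_biUnion_left hQ)⟩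

variable (hJ : J.OK) (hP : PJ J c) (h0 : 0 < δ) (h1 : δ ≤ dl0)
  (hF : ∀ a ∈ cylW c, ∀ β f, Bs (J.xs a).D β → Fz κ (lam ⊕ lam) 8 (Add46.jX J a) f β δ)
include hJ hP h0 h1 hF

theorem ix_ex (hp : ∀ π ∈ P, M.sys.Piece c.1 π) (hs : P' ⊆ P) (g : Go δ y P) :
    ∃ d, Ix δ y P P' d := by
  let G := Add46.jGR hJ hp hs g.bp h0 h1
  have ac : ∀ i : Ed c, G.X.Act i → i ∈ EdP c P := fun i hi =>
    let ⟨j, hj⟩ := G.f.surjective ⟨i, hi⟩
    (show j.1 = i from congrArg Subtype.val hj) ▸ j.2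
  obtain ⟨o, R, x, w, k1, k2, -, k4, k5, -⟩ := Pnt66.pnt G.X (t := (0 : T0)) (c := y.x.con)
    (β := fun i : Ed c => y.β i.1 i.2) (η := fun _ => 0) (l := fun _ => 0) (ζ := fun _ => 1)
    g.O g.adm (fun _ _ => rfl) fun (i : Ed c) hi => ⟨(g.bs i (ac i hi)).adm, Pnt66.fo_zero, by
      rw [smul_zero, Rd78.bh_zero, show (G.X.P i).l = dr i.2 by obtain ⟨_, _ | _⟩ := i <;> rfl]
      exact g.lim i (ac i hi) _⟩
  have z := k5 fun i hi => (g.bs i (ac i hi)).zr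
  have ch := Add46.jCh hJ hp hs h0 h1 g (fun a ha => (hP.nil a ha).1)
    (fun i hi f => hF _ i.1.2 _ f (g.bs i hi)) k1.le k1.lit z ⟨w, 1, k4⟩
  obtain ⟨d, hd⟩ := (G.X.fred o R 0 0 0 8 _ (by norm_num) k1 ch.aff x
    (k2 ▸ fun (i : Ed c) hi k k0 => ⟨_, ch.loc ⟨i, ac i hi⟩ k k0⟩)).1
  exact ⟨d, g.bp, o, R, x, rfl, k1.le, k1.lit, z, ⟨w, 1, k4⟩, hd⟩

omit hP hF in
theorem ix_add {P₁ P₁' P₂ P₂' : Set (Reg A)} (hp : ∀ π ∈ P₁ ∪ P₂, M.sys.Piece c.1 π)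
    (s₁ : P₁' ⊆ P₁) (s₂ : P₂' ⊆ P₂) (hd : Disjoint P₁ P₂) (g : Go δ y (P₁ ∪ P₂)) {d d₁ d₂ : ℤ}
    (e : Ix δ y (P₁ ∪ P₂) (P₁' ∪ P₂') d) (e₁ : Ix δ y P₁ P₁' d₁) (e₂ : Ix δ y P₂ P₂' d₂) :
    d = d₁ + d₂ := by
  obtain ⟨⟨s, _, _⟩, o, -, x, e, -, -, -, k, l⟩ := e
  obtain rfl : s = y.s := e
  obtain ⟨⟨s, _, _⟩, o₁, -, x₁, e, -, -, -, k₁, l₁⟩ := e₁
  obtain rfl : s = y.s := e
  obtain ⟨⟨s, _, _⟩, o₂, -, x₂, e, -, -, -, k₂, l₂⟩ := e₂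
  obtain rfl : s = y.s := e
  have ok : ∀ {P P'}, P ⊆ P₁ ∪ P₂ → P' ⊆ P → (g.bp.Fm P P' (fun _ : T0 => y.s) δ).OK :=
    fun a b => (Add46.jGR hJ (fun π k => hp π (a k)) b g.bp h0 h1).X.ok
  refine Ulc97.add _ _ _ _ (g.bp.Fm (P₁ ∪ P₂) (P₁' ∪ P₂') (fun _ : T0 => y.s) δ) _ _ _ _ o o₁ o₂
    0 0 0 8 y.x.con x x₁ x₂ d d₁ d₂ (by norm_num) (ok subset_rfl (union_subset_union s₁ s₂))
    (ok subset_union_left s₁) (ok subset_union_right s₂) (biUnion_union _ _ _)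
    (biUnion_union _ _ _) (disjoint_left.2 fun z a b => ?_) (Subsingleton.elim _ _)
    (Subsingleton.elim _ _) g.adm k k₁ k₂ l l₁ l₂
  obtain ⟨π, a1, a2⟩ := mem_un.1 a
  obtain ⟨π', b1, b2⟩ := mem_un.1 b
  exact disjoint_left.1 hd a1 (Cyl58.pc_unique _ (hp _ (.inr b1)) (hp _ (.inl a1)) b2 a2 ▸ b1)

theorem ix_eq (hp : ∀ π ∈ P, M.sys.Piece c.1 π) (hs : P' ⊆ P) (g : Go δ y P) {d : ℤ}
    (e : Ix δ y P P' d) : d = ix δ y P P' := by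
  induction P, toFinite P using Set.Finite.induction_on generalizing P' d with
  | empty =>
    obtain rfl := subset_empty_iff.1 hs
    have := ix_add hJ h0 h1 (P₁ := ∅) (P₂ := ∅) (by simp) subset_rfl subset_rfl (by simp)
      (by rwa [union_self]) (by rwa [union_self]) e e
    simp only [ix, finsum_mem_empty]
    omega
  | @insert π Q hπ hQ ih =>
    have g₁ := go_mono g (singleton_subset_iff.2 (mem_insert _ _))
    have g₂ := go_mono g (subset_insert _ _)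
    have p₁ : ∀ π' ∈ ({π} : Set (Reg A)), M.sys.Piece c.1 π' := fun _ k => hp _ (.inl k)
    have p₂ := fun π' (k : π' ∈ Q) => hp π' (.inr k)
    have s₂ : P' \ {π} ⊆ Q := fun _ k => (hs k.1).resolve_left k.2
    obtain ⟨d₂, e₂⟩ := ix_ex hJ hP h0 h1 hF p₂ s₂ g₂
    have k := fun d₁ e₁ => ix_add hJ h0 h1 (P₁ := {π}) (P₁' := P' ∩ {π}) (d₁ := d₁) hp
      inter_subset_right s₂ (disjoint_singleton_left.2 hπ) g (by rwa [inter_union_sdiff]) e₁ e₂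
    rw [ih p₂ s₂ g₂ e₂] at k
    by_cases l : π ∈ P'
    · rw [inter_eq_right.2 (singleton_subset_iff.2 l)] at k
      rw [k _ (Classical.epsilon_spec (ix_ex hJ hP h0 h1 hF p₁ subset_rfl g₁)), ix, ix,
        finsum_mem_insert _ hπ hQ, ← finsum_mem_add_sdiff (singleton_subset_iff.2 l)
        (toFinite _), finsum_mem_singleton, idr]
      ring
    · rw [inter_singleton_eq_empty.2 l, sdiff_singleton_eq_self l] at k
      rw [k _ (Classical.epsilon_spec (ix_ex hJ hP h0 h1 hF p₁ (empty_subset _) g₁)), ix, ix,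
        finsum_mem_insert _ hπ hQ, ia, add_assoc]

omit hJ hP h0 h1 hF in
variable (J c) in
/-- **LEAF SPL** -/
theorem splJ : Spl J c := spl J c fun hJ hP =>
  let ⟨δ₀, k0, k1⟩ := exists_fz J c hJ hP
  ⟨δ₀, k0, fun δ hδ _ _ _ hp hs g =>
    let ⟨_, e⟩ := ix_ex hJ hP hδ.1 (k1 δ hδ).1 (k1 δ hδ).2.2 hp hs g
    ix_eq hJ hP hδ.1 (k1 δ hδ).1 (k1 δ hδ).2.2 hp hs g e ▸ e⟩

end Crest.Agent.X212.Spl54
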