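import Crest.Agent.X212.Add46.Bg
import Crest.Agent.X212.Mon62.PS
import Crest.Agent.X212.Ixz30.Chz
import Crest.Agent.X212.Inv14.Main
import Crest.Agent.X212.Pnt66.Ex

/-!
# Row 212, PT-FRP (helper54): the Fredholm hypotheses on the ends of a part
-/

set_option autoImplicit false
set_option linter.unusedSectionVars false
noncomputable section
open scoped Manifold ContDiff Topology
open MeasureTheory Set Function Filter

namespace Crest.Agent.X212.Spl54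
open An M Nd18 Mod61 Nk89 Cht98 Rf65 Rdc90 Pte3

section gen
variable {E : Type} [NormedAddCommGroup E] [NormedSpace ℝ E] [FiniteDimensional ℝ E]
  [MeasurableSpace E] [BorelSpace E]
  {HM : Type} [TopologicalSpace HM] {I : ModelWithCorners ℝ E HM} [I.Boundaryless]
  {M : Type} [TopologicalSpace M] [ChartedSpace HM M] [IsManifold I ∞ M]
  [MeasurableSpace M] [T2Space M] [BorelSpace M] [SecondCountableTopology M]
  {κ lam : Type} [Fintype κ] [Fintype lam] {T : Type} [NormedAddCommGroup T] [NormedSpace ℝ T]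
  {𝔉 : Mod61.Fam I M (Option κ) lam T} {δ R : ℝ} {r n m k : ℕ} {o : Ref 𝔉}

/-- equations which agree off a compact set -/
theorem loc_cpt (X : Ends 𝔉 δ) {a : X.A} {e e' : T → PtX M (Option κ) lam r n m} {t : T}
    {C : Set M} (hC : IsCompact C)
    (he : ∀ c, ∀ x ∉ C, (e t).D c x = (e' t).D c x ∧ (e t).C c x = (e' t).C c x) {h h0 eZ}
    (L : (X.P a).Loc o k δ R e' t h h0 eZ) : (X.P a).Loc o k δ R e t h h0 eZ := fun b ρ hb ε hε => by
  obtain ⟨a', ha⟩ := L b ρ hb ε hε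
  obtain ⟨s, hs⟩ := X.exists_ht hC
  refine ⟨max a' (max s X.R), fun y y' ht h1 h2 h3 => (ha y y' ht h1 h2 h3).imp
    (Ixz30.NE_le (fun x hx => ?_)).trans (Ixz30.NE_le fun x hx => ?_).trans⟩ <;>
  have k := he y.cfg _ (hs a _ (End.U_mono _ (le_max_left s X.R) ((X.okP a).ψ_mem (le_max_right _ _)
    ((le_max_right _ _).trans_lt hx))))
  · exact congrArg (· - _) (by simp only [vD, indicator, ht, k.1])
  · exact congrArg (· - _) (by simp only [vC, indicator, ht, k.2])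

/-- flat slices without spinor -/
theorem bs_sl (X : Ends 𝔉 δ) (hl : X.Lit o R) (z : o.Φ0 = 0) {a : X.A} {t : T} (ht : t ∈ 𝔉.Q)
    (f : Flt (X.P a).D ((X.P a).sl o (R + 1) t)) : Bs (X.P a).D ((X.P a).sl o (R + 1) t) :=
  ⟨(X.okP a).D, (X.P a).Y.dim, (hl.lit a).adm X.ok (X.okP a) hl.le ht, fun _ => congrFun z _, f⟩

theorem cyl_fz {Y : XD κ lam} {β : Y.C} (b : Bs Y.D β) (F : ∀ f, Fz κ lam k Y f β δ) (p : Prop)
    (h : Y.D.Adm β) (h0) : CylOK (O' := {_x | p}) (δ := δ) h h0 k (eZ Y.N Y.D) := by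
  by_cases e : p
  · exact F true _ h _ h0 (eq_univ_of_forall fun _ => e) (by
      convert Pnt66.eqv_refl b.ok b.adm using 1
      exact congrArg _ (Subsingleton.elim _ _))
  · refine F false _ h _ h0 (eq_empty_of_forall_notMem fun _ => e) ?_
    convert Pnt66.eqv_refl b.ok b.adm using 1
    exact congrArg₂ _ (funext b.zr).symm (Subsingleton.elim _ _)

end gen

variable {Wi : Type} {X : Mf 4} {A κ lam : Type} [Fintype A] [Fintype κ] [Fintype lam]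
  [DecidableEq lam] {M : Mark X A κ} {W : World M} {N : ML M lam} {Λ : Lns W N}
  {A' h : Type} [Fintype A'] [DecidableEq A'] [Fintype h] {r n : ℕ}
  {J : Job Wi Λ A' h r n} {c : M.Cl} {σ : Cel A'} {s : A' → ℝ}

/-- the finite necks stay in the thick part -/
theorem nk_thk (hJ : J.OK) (hO : J.Θ s ∈ M.O c.1) {a : A} (k : Act J.m c a none (J.Θ s)) :
    (J.K c a none _ k).ψ.target ⊆ thk W.toCaps c (J.Θ s) 1 := fun z hz => by_contra fun hn => by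
  obtain ⟨a', h1, h2⟩ : ∃ a ∈ cylW c, |hZ W.toCaps c a z| < 1 := by
    simpa only [thk, Nw_eq hO, mem_ofPred_eq, not_forall, not_le, exists_prop] using hn
  exact disjoint_left.1 (disjoint_hZ W.toCaps (.inr k.2.2.2.2.1) (.inl h1) (k.2.2.2.2.1.2 a' h1.1))
    (show _ < (3 : ℝ) from lt_trans (isNk_sub k (hJ.nk _ _ _ _ _) hz) (by norm_num))
    (show _ < (3 : ℝ) from lt_trans h2 (by norm_num))

theorem τ0_cpt (hJ : J.OK) (hP : PJ J c) (hO : J.Θ s ∈ M.O c.1) (x) {z}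
    (hz : z ∉ thk W.toCaps c (J.Θ s) 1) : (J.τ0 c s).D x z = 0 ∧ (J.τ0 c s).C x z = 0 := by
  have b : ∀ (i : A × Option Bool) (k : J.Ac c s i), (((J.xs i.1).N.smul (J.ν i.1 s)).q1
      (J.K c i.1 i.2 _ k) : Pt _ _ _ r n).D x z = 0 ∧ (((J.xs i.1).N.smul (J.ν i.1 s)).q1
      (J.K c i.1 i.2 _ k) : Pt _ _ _ r n).C x z = 0 := by
    rintro ⟨a, _ | b⟩ k
    · exact Wrd81.q1_off _ _ x fun e => hz (nk_thk hJ hO k e)
    · rw [((hP.nil a ⟨k.2.2.2, k.1⟩).1.smul _).q1]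
      exact ⟨rfl, rfl⟩
  simp [Job.τ0, Pt.dsum, b]

theorem τw_cpt (hJ : J.OK) (hP : PJ J c) (hσ : σ ∈ J.𝒦) (hs : J.Ov σ c s) (w : Wi) :
    ∃ C, IsCompact C ∧ ∀ x, ∀ z ∉ C, (J.τw c s w).D x z = 0 ∧ (J.τw c s w).C x z = 0 := by
  have hO := hJ.memO hσ hs
  obtain ⟨K, k1, k2⟩ : ∃ K, IsCompact K ∧ ∀ (x : Cfg _ _ _ r), ∀ z ∉ K, J.co w s = 0 ∨
      x.tD (J.B c) (J.G c s).F ((J.tp c).tm (J.tw w)) z = 0 ∧
      x.tC (J.B c) (J.G c s).F ((J.tp c).tm (J.tw w)) z = 0 := by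
    by_cases e : J.co w s = 0
    · exact ⟨∅, isCompact_empty, fun _ _ _ => .inl e⟩
    · obtain ⟨_, k⟩ := hJ.tw_in hσ hs e
      obtain ⟨K, k1, -, k3⟩ := k.supp (ι := Option κ)
      exact ⟨K, k1, fun x z hz => .inr (k3 x _ _ z hz)⟩
  refine ⟨_, k1.union (isCompact_thk W.toCaps c (J.Θ s) one_pos (by norm_num)), fun x z hz => ?_⟩
  have b : ∀ (i : A × Option Bool) (k : J.Ac c s i), (fsum (fun T => (J.xs i.1).N.q2
      (J.K c i.1 i.2 _ k) T.1) (J.ν i.1 s • (J.xs i.1).ty w) : Pt _ _ _ r n).D x z = 0 ∧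
      (fsum (fun T => (J.xs i.1).N.q2 (J.K c i.1 i.2 _ k) T.1)
        (J.ν i.1 s • (J.xs i.1).ty w) : Pt _ _ _ r n).C x z = 0 := by
    rintro ⟨a, _ | b⟩ k
    · have := fun T => Wrd81.q2_off (n := n) (J.xs a).N (J.K c a none _ k) x
        (fun e => hz (.inr (nk_thk hJ hO k e))) T
      simp [fsum, Finsupp.sum, this]
    · simp [(hP.nil a ⟨k.2.2.2, k.1⟩).2, fsum]
  rcases k2 x z fun e => hz (.inl e) with k | k <;>
    simp [Job.τw, Pt.add, Pt.smul, Pt.dsum, tmP, b, k]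

/-- **the perturbations vanish off a compact set** -/
theorem τ_cpt (hJ : J.OK) (hP : PJ J c) (hσ : σ ∈ J.𝒦) (hs : J.Ov σ c s) (q : Wi →₀ ℝ) :
    ∃ C, IsCompact C ∧ ∀ x, ∀ z ∉ C, (J.τ c q s).D x z = 0 ∧ (J.τ c q s).C x z = 0 := by
  choose K k1 k2 using τw_cpt hJ hP hσ hs
  refine ⟨_, (q.support.isCompact_biUnion fun w _ => k1 w).union
    (isCompact_thk W.toCaps c (J.Θ s) one_pos (by norm_num)), fun x z hz => ?_⟩
  have a := τ0_cpt hJ hP (hJ.memO hσ hs) x fun e => hz (.inr e)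
  have b := fun w (hw : w ∈ q.support) => k2 w x z fun e => hz (.inl (mem_biUnion hw e))
  simp only [Job.τ, Pt.add, fsum, Finsupp.sum, a, zero_add]
  exact ⟨Finset.sum_eq_zero fun w hw => by rw [(b w hw).1, smul_zero],
    Finset.sum_eq_zero fun w hw => by rw [(b w hw).2, smul_zero]⟩

variable {p : Prt A A' h} {U : Type} [Fintype U] {δ : ℝ} {b : Bp J c}

/-- the equations of a chart are the unperturbed ones off a compact set -/
theorem tot_cpt (H : PG J c σ p) (hP : PJ J c) (hb : J.Ov σ c b.s) (q : Wi →₀ ℝ) {t : Tq p U}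
    (ht : t ∈ (b.F p U δ).Q) : ∃ C, IsCompact C ∧ ∀ x, ∀ z ∉ C,
      (EC.tot b p U δ q t).D x z = ((b.F p U δ).eq0 r n (min r 1) t).D x z ∧
      (EC.tot b p U δ q t).C x z = ((b.F p U δ).eq0 r n (min r 1) t).C x z := by
  obtain ⟨C, h1, h2⟩ := τ_cpt H.ok hP H.mem (H.ov hb ht) q
  refine ⟨C, h1, fun x z hz => ?_⟩
  obtain ⟨a1, a2, -⟩ := tot_ev (b := b) (δ := δ) (t := t) (q := q) x
  rw [a1, a2, Cfg.eD, Cfg.eC, (h2 x z hz).1, (h2 x z hz).2, sub_zero, sub_zero]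
  exact ⟨rfl, rfl⟩

variable (J c) in
/-- one bound for the weight at all walls -/
theorem exists_fz (hJ : J.OK) (hP : PJ J c) : ∃ δ₀ > 0, ∀ δ ∈ Ioc 0 δ₀, δ ≤ dl0 ∧ δ ≤ 1 / 16 ∧
    ∀ a ∈ cylW c, ∀ β f, Bs (J.xs a).D β → Fz κ (lam ⊕ lam) 8 (Add46.jX J a) f β δ := by
  have k : ∀ a : cylW c, ∀ᶠ δ in 𝓝[>] (0 : ℝ), ∀ β f, Bs (J.xs a).D β →
      Fz κ (lam ⊕ lam) 8 (Add46.jX J a) f β δ := fun a =>
    let ⟨_, h1, h2⟩ := Inv14.pInv κ (lam ⊕ lam) (k := 8) (by norm_num) _ (Add46.jX_ok hJ a)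
      (hP.nil a a.2).1 (hP.py a a.2)
    mem_of_superset (Ioc_mem_nhdsGT h1) fun δ hδ β f hβ => (h2 δ hδ β f hβ).1
  obtain ⟨u, h1, h2⟩ := mem_nhdsGT_iff_exists_Ioc_subset.1 (inter_mem (eventually_all.2 k)
    (inter_mem (Ioc_mem_nhdsGT dl0_pos) (Ioc_mem_nhdsGT (show (0 : ℝ) < 1 / 16 by norm_num))))
  exact ⟨u, h1, fun δ hδ => ⟨(h2 hδ).2.1.2, (h2 hδ).2.2.2, fun a ha => (h2 hδ).1 ⟨a, ha⟩⟩⟩

/-- the Fredholm hypotheses of a chart with flat slices -/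
theorem frC (H : PG J c σ p) (hP : PJ J c) (hb : J.Ov σ c b.s) {E : EC b p U δ} (eo : E.OK)
    (z : E.o.Φ0 = 0) (hF : ∀ a ∈ cylW c, ∀ β f, Bs (J.xs a).D β →
      Fz κ (lam ⊕ lam) 8 (Add46.jX J a) f β δ) (hf : ∀ i ∈ EdP c p.P, ∀ t ∈ (b.F p U δ).Q,
      Flt (J.xs i.1).D ((en E i).sl E.o (E.R + 1) t)) : FrC E := fun q t ht i hi k k0 => by
  let Y := H.ends U b eo.d0 eo.d1
  have hl : Y.Lit E.o E.R := ⟨eo.R5, eo.lit⟩
  have bs := bs_sl Y hl z (a := i) ht (hf i hi t ht)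
  obtain ⟨C, c1, c2⟩ := tot_cpt (U := U) (δ := δ) H hP hb q ht
  exact ⟨_, cyl_fz (Y := Add46.jX J i.1) bs (fun f => hF _ i.1.2 _ f bs) _ k k0, loc_cpt Y (a := i)
    c1 c2 (Add46.loc_eq0 Y hl ((H.act_iff _ _).2 hi) (hP.nil _ i.1.2).1 k k0)⟩

variable (J c) in
/-- **LEAF P-INV + LOC** -/
theorem frP : FrP J c := fun hJ hP =>
  let ⟨δ₀, h0, h1⟩ := exists_fz J c hJ hP
  ⟨δ₀, h0, fun _ hδ _ _ _ _ _ H _ δ _ g =>
    have k : PG J c _ _ := ⟨H.ok, H.mem, H.pok⟩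
    frC k hP g.ov g.ok g.z (h1 δ ⟨g.ok.d0, g.le.trans hδ.2⟩).2.2 fun i hi _ =>
      Mon62.flt_sl k hP g.ok hi (g.bs i hi)⟩

end Crest.Agent.X212.Spl54
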