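import Crest.Agent.X212.Pte3.Defs

/-! Row 212, P-SPL (helper54): the uniform form of the leaf P-SM. -/

set_option autoImplicit false
noncomputable section

namespace Crest.Agent.X212.Spl54
open An M Rf65

variable {Wi : Type} {X : Mf 4} {A κ lam : Type} [Fintype A] [Fintype κ] [Fintype lam]
  [DecidableEq lam] {M : Mark X A κ} {W : World M} {N : ML M lam} {Λ : Lns W N}
  {A' h : Type} [Fintype A'] [DecidableEq A'] [Fintype h] {r n : ℕ}

/-- **P-SM**, uniform: the maps of a chart with flat slices are smooth -/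
def SmU (J : Job Wi Λ A' h r n) (c : M.Cl) : Prop :=
  ∀ σ p (U : Type) [Fintype U] (b : Bp J c) δ (E : EC b p U δ), Pte3.PG J c σ p → PJ J c →
    J.Ov σ c b.s → E.OK → δ ≤ 1 / 16 → E.o.Φ0 = 0 →
    (∀ i ∈ EdP c p.P, ∀ t ∈ (b.F p U δ).Q,
      Rdc90.Flt (J.xs i.1).D ((Pte3.en E i).sl E.o (E.R + 1) t)) → Pte3.SmC E

end Crest.Agent.X212.Spl54
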